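import Vale.Agent.P092.H15.HMAbs
import Vale.Agent.P092.H714.Cl3

/-!
P092 (helper15), [A-CLASS] block (2): Howe–Moore without Cartan decomposition, for closed groups
between the group generated by the transvections of a hermitian form and its closure.
-/

set_option linter.all false

open Matrix Filter Topology

namespace Vale.Agent.P092.H15

open Vale.Agent.P092.H303 (FormGroup)
open Vale.Agent.P092.H933 (Len)
open Vale.Agent.P092.H714.Cl

variable {n : Type} [Fintype n] [DecidableEq n] {k : Type} [NontriviallyNormedField k]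
  {σ : k →+* k} {ε : k} {J : Matrix n n k} {G : Subgroup (SpecialLinearGroup n k)}

/-- Sets of matrices with bounded entries are compact in a closed subgroup. -/
theorem isCompact_bdd [ProperSpace k] (hG : IsClosed (G : Set (SpecialLinearGroup n k))) (R : ℝ) :
    IsCompact {g : G | ∀ i j, ‖g.1.1 i j‖ ≤ R} := by
  have h1 : IsCompact {f : Matrix n n k | ∀ i j, ‖f i j‖ ≤ R} := by
    have : {f : Matrix n n k | ∀ i j, ‖f i j‖ ≤ R} =
        Set.pi Set.univ (fun _ : n => Set.pi Set.univ fun _ : n => Metric.closedBall (0 : k) R) := by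
      ext f
      constructor
      · intro h i _ j _
        exact mem_closedBall_zero_iff.2 (h i j)
      · intro h i j
        exact mem_closedBall_zero_iff.1 (h i trivial j trivial)
    rw [this]
    exact isCompact_univ_pi fun _ => isCompact_univ_pi fun _ => isCompact_closedBall _ _
  have h2 : IsClosedEmbedding fun g : G => g.1.1 :=
    (H303.isClosedEmbedding_val (n := n) (k := k)).comp hG.isClosedEmbedding_subtypeVal
  exact h2.isCompact_preimage h1

theorem row_eq (g : SpecialLinearGroup n k) (i : n) : (Pi.single i (1 : k)) ᵥ* g.1 = g.1 i := by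
  rw [single_one_vecMul]
  rfl

/-- There is an isotropic vector whose images are unbounded. -/
theorem exists_unbdd [ProperSpace k] (hF : Frm σ ε J)
    (hG : IsClosed (G : Set (SpecialLinearGroup n k))) (U : Ultrafilter G)
    (hU : (U : Filter G) ≤ cocompact G) :
    ∃ v, hf σ J v v = 0 ∧ Tendsto (fun b : G => ‖v ᵥ* ((b.1)⁻¹).1‖) U atTop := by
  by_contra hcon
  push Not at hcon
  have h1 : ∀ v, hf σ J v v = 0 → ∃ R : ℝ, ∀ᶠ b : G in U, ‖v ᵥ* ((b.1)⁻¹).1‖ ≤ R := by
    intro v hv
    have h2 := hcon v hv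
    rw [tendsto_atTop] at h2
    push Not at h2
    obtain ⟨R, hR⟩ := h2
    refine ⟨R, ?_⟩
    exact hR.mono fun b hb => hb.le
  have h2 : ∀ y : n → k, ∃ R : ℝ, ∀ᶠ b : G in U, ‖y ᵥ* ((b.1)⁻¹).1‖ ≤ R := by
    intro y
    obtain ⟨a, b, c, ha, hb, hc, rfl⟩ := hF.iso_decomp y
    obtain ⟨Ra, hRa⟩ := h1 a ha
    obtain ⟨Rb, hRb⟩ := h1 b hb
    obtain ⟨Rc, hRc⟩ := h1 c hc
    refine ⟨Ra + Rb + Rc, ?_⟩
    filter_upwards [hRa, hRb, hRc] with x h1 h2 h3
    rw [add_vecMul, add_vecMul]
    exact (norm_add₃_le).trans (by linarith)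
  choose R hR using h2
  have h3 : ∀ᶠ b : G in U, ∀ i : n, ‖(b⁻¹).1.1 i‖ ≤ ∑ i : n, |R (Pi.single i 1)| := by
    rw [eventually_all]
    intro i
    filter_upwards [hR (Pi.single i 1)] with b hb
    rw [row_eq] at hb
    refine hb.trans ((le_abs_self _).trans ?_)
    exact Finset.single_le_sum (f := fun i : n => |R (Pi.single i 1)|) (fun _ _ => abs_nonneg _)
      (Finset.mem_univ i)
  have h4 : IsCompact {b : G | ∀ i j, ‖(b⁻¹).1.1 i j‖ ≤ ∑ i : n, |R (Pi.single i 1)|} := by
    have h5 := (isCompact_bdd hG (∑ i : n, |R (Pi.single i 1)|)).inv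
    have e : {b : G | ∀ i j, ‖(b⁻¹).1.1 i j‖ ≤ ∑ i : n, |R (Pi.single i 1)|} =
        {g : G | ∀ i j, ‖g.1.1 i j‖ ≤ ∑ i : n, |R (Pi.single i 1)|}⁻¹ := rfl
    rw [e]; exact h5
  have h5 := hU h4.compl_mem_cocompact
  obtain ⟨b, hb1, hb2⟩ := (h3.and h5).exists
  exact hb2 fun i j => (norm_le_pi_norm _ j).trans (hb1 i)

/-- A vector divided by a coordinate of maximal norm. -/
theorem exists_scalar [Nonempty n] (y : n → k) : ∃ a : k, ‖a‖ = ‖y‖ := by
  obtain ⟨j, -, hj⟩ := Finset.exists_max_image Finset.univ (fun i => ‖y i‖) Finset.univ_nonempty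
  refine ⟨y j, le_antisymm (norm_le_pi_norm y j) ?_⟩
  exact (pi_norm_le_iff_of_nonneg (norm_nonneg _)).2 fun i => hj i (Finset.mem_univ i)

/-- **[A-CLASS] (2)**: the group form of Howe–Moore for closed groups between `GT` and its
closure. -/
theorem hmg_cl [ProperSpace k] (hσ : ∀ x, ‖σ x‖ = ‖x‖) (hF : Frm σ ε J) (hG : GT σ ε J ≤ G)
    (hGF : G ≤ FormGroup σ J) (hGcl : IsClosed (G : Set (SpecialLinearGroup n k)))
    (hGc : G ≤ (GT σ ε J).topologicalClosure) : HMG G := by
  intro U hU f hf' hc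
  have hσc := continuous_of_norm hσ
  obtain ⟨v, hv, hvt⟩ := exists_unbdd hF hGcl U hU
  haveI : Nonempty n := by
    by_contra hn
    rw [not_nonempty_iff] at hn
    obtain ⟨u, hu, -⟩ := hF.iso
    exact hu (Subsingleton.elim _ _)
  choose a ha using fun b : G => exists_scalar (v ᵥ* ((b.1)⁻¹).1)
  have hat : Tendsto (fun b => ‖a b‖) U atTop := hvt.congr fun b => (ha b).symm
  set u : G → n → k := fun b => (a b)⁻¹ • (v ᵥ* ((b.1)⁻¹).1) with hu
  have hui : ∀ b, hf σ J (u b) (u b) = 0 := fun b =>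
    iso_smul (iso_vecMul (inv_mem (hGF b.2)) hv) _
  have hun : ∀ b, ‖u b‖ ≤ 1 := fun b => by
    rw [hu]
    simp only
    rw [norm_smul, norm_inv, ha]
    exact inv_mul_le_one
  obtain ⟨u₀, -, hu₀⟩ := (isCompact_closedBall (0 : n → k) 1).ultrafilter_le_nhds (U.map u)
    (Filter.tendsto_principal.2 (Filter.Eventually.of_forall fun b =>
      mem_closedBall_zero_iff.2 (hun b)))
  have hu₀ : Tendsto u U (𝓝 u₀) := hu₀
  have ha0 : ∀ᶠ b in (U : Filter G), a b ≠ 0 := by
    filter_upwards [hat.eventually_gt_atTop 0] with b hb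
    exact norm_pos_iff.1 hb
  have hu₀1 : ‖u₀‖ = 1 := by
    refine tendsto_nhds_unique hu₀.norm (tendsto_const_nhds.congr' ?_)
    filter_upwards [ha0] with b hb
    rw [hu]
    simp only
    rw [norm_smul, norm_inv, ← ha, inv_mul_cancel₀ (norm_ne_zero_iff.2 hb)]
  have hu₀0 : u₀ ≠ 0 := by
    rintro rfl
    rw [norm_zero] at hu₀1
    exact zero_ne_one hu₀1
  have hu₀i : hf σ J u₀ u₀ = 0 := by
    have h1 := ((continuous_hf (J := J) hσc).tendsto (u₀, u₀)).comp (hu₀.prodMk_nhds hu₀)
    refine tendsto_nhds_unique h1 (tendsto_const_nhds.congr fun b => ?_)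
    exact (hui b).symm
  have hat0 : Tendsto (fun b => (a b)⁻¹ • v) U (𝓝 0) := by
    have h1 : Tendsto (fun b => (a b)⁻¹) U (𝓝 0) := by
      rw [tendsto_zero_iff_norm_tendsto_zero]
      simp only [norm_inv]
      exact tendsto_inv_atTop_zero.comp hat
    have h2 := h1.smul_const v
    rwa [zero_smul] at h2
  refine mautner hσ hF hG hGF hf' hGc hu₀0 hu₀i fun c hcc => hc _ ⟨fun b => tg hG (hui b) hcc, ?_, ?_⟩
  · exact tendsto_tg hσc hG hui (fun _ => hcc) hu₀i hcc hu₀ tendsto_const_nhds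
  · have hz : hf σ J (0 : n → k) 0 = 0 := hf_zero_left σ J 0
    have h1 := tendsto_tg hσc hG (fun b => iso_smul hv (a b)⁻¹) (fun _ => hcc) hz hcc hat0
      tendsto_const_nhds
    have e1 : tg hG hz hcc = 1 := by
      refine Subtype.ext ?_
      rw [tg_val]
      refine ext_vecMul fun x => ?_
      rw [vecMul_tv hz, smul_zero, add_zero]
      exact (vecMul_one' x).symm
    rw [e1] at h1
    refine h1.congr fun b => ?_
    refine Subtype.ext ?_
    change tv σ J _ c = (b.1)⁻¹ * tv σ J (u b) c * b.1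
    rw [conj_tv (hGF b.2) (hui b)]
    congr 1
    rw [hu]
    simp only
    rw [smul_vecMul, vecMul_inv_cancel]

/-- The closure of the group of transvections. -/
theorem hmg_closure [ProperSpace k] (hσ : ∀ x, ‖σ x‖ = ‖x‖) (hF : Frm σ ε J) :
    HMG (GT σ ε J).topologicalClosure := by
  refine hmg_cl hσ hF (Subgroup.le_topologicalClosure _) ?_
    (Subgroup.isClosed_topologicalClosure _) le_rfl
  exact Subgroup.topologicalClosure_minimal _ (GT_le hF)
    (H303.isClosed_formGroup (continuous_of_norm hσ) J)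

end Vale.Agent.P092.H15
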