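import Vale.Agent.P092.H714.Cl2
import Mathlib.LinearAlgebra.Dimension.Finite
import Mathlib.LinearAlgebra.FiniteDimensional.Basic

/-!
P092 (helper15), [A-CLASS] block (10): the symplectic group is generated by transvections, for every
field and every nondegenerate alternating form.
-/

set_option linter.all false

open Matrix

namespace Vale.Agent.P092.H15

open Vale.Agent.P092.H303 (FormGroup)
open Vale.Agent.P092.H714.Cl

variable {n : Type} [Fintype n] [DecidableEq n] {k : Type} [Field k] {J : Matrix n n k}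

/-- A nondegenerate alternating form. -/
structure Alt (J : Matrix n n k) : Prop where
  diag : ∀ i, J i i = 0
  skew : ∀ i j, J j i = -J i j
  det : J.det ≠ 0

/-- `h(x, y)` for `σ = id`. -/
theorem hf_id (x y : n → k) : hf (RingHom.id k) J x y = x ⬝ᵥ (J *ᵥ y) := rfl

theorem Alt.hf_self (h : Alt J) (x : n → k) : hf (RingHom.id k) J x x = 0 := by
  rw [hf_id]
  simp only [dotProduct, mulVec, Finset.mul_sum]
  rw [← Finset.sum_product']
  refine Finset.sum_involution (fun p _ => (p.2, p.1)) ?_ ?_ ?_ ?_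
  · rintro ⟨i, j⟩ -
    simp only
    rw [h.skew i j]
    ring
  · rintro ⟨i, j⟩ - hne heq
    simp only [Prod.mk.injEq] at heq
    apply hne
    obtain ⟨rfl, -⟩ := heq
    simp only
    rw [h.diag, zero_mul, mul_zero]
  · rintro ⟨i, j⟩ -
    exact Finset.mem_univ _
  · rintro ⟨i, j⟩ -
    rfl

theorem Alt.nondeg (h : Alt J) (x : n → k) (hx : x ≠ 0) : ∃ y, hf (RingHom.id k) J x y ≠ 0 := by
  by_contra hcon
  push Not at hcon
  have h1 : x ᵥ* J = 0 := by
    funext j
    have := hcon (Pi.single j 1)
    rw [hf_id, dotProduct_mulVec] at this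
    simpa using this
  have h2 : J.det = 0 := exists_vecMul_eq_zero_iff.1 ⟨x, hx, h1⟩
  exact h.det h2

theorem Alt.frm [Nonempty n] (h : Alt J) : Frm (RingHom.id k) (-1) J where
  inv x := rfl
  eps := by ring
  seps := rfl
  herm x y := by
    have h1 := h.hf_self (x + y)
    rw [hf_add_left, hf_add_right, hf_add_right, h.hf_self, h.hf_self] at h1
    rw [RingHom.id_apply]
    linear_combination h1
  nondeg := h.nondeg
  tv y := ⟨0, by rw [h.hf_self]; simp⟩
  iso := by
    obtain ⟨i⟩ := ‹Nonempty n›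
    refine ⟨Pi.single i 1, ?_, h.hf_self _⟩
    intro h0
    have := congrFun h0 i
    simp at this
  cc := ⟨1, one_ne_zero, by simp⟩

/-- The fixed vectors. -/
def Fx (g : SpecialLinearGroup n k) : Submodule k (n → k) where
  carrier := {x | x ᵥ* g.1 = x}
  add_mem' {a b} ha hb := by
    change (a + b) ᵥ* g.1 = a + b
    rw [add_vecMul, show a ᵥ* g.1 = a from ha, show b ᵥ* g.1 = b from hb]
  zero_mem' := zero_vecMul _
  smul_mem' c x hx := by
    change (c • x) ᵥ* g.1 = c • x
    rw [smul_vecMul, show x ᵥ* g.1 = x from hx]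

theorem mem_Fx {g : SpecialLinearGroup n k} {x : n → k} : x ∈ Fx g ↔ x ᵥ* g.1 = x := Iff.rfl

theorem cc_id (c : k) : c + -1 * RingHom.id k c = 0 := by
  rw [RingHom.id_apply]; ring

/-- The transvection along `x - x g` fixes the fixed vectors of `g`. -/
theorem Fx_le (h : Alt J) {g : SpecialLinearGroup n k} (hg : g ∈ FormGroup (RingHom.id k) J)
    (x : n → k) (c : k) : Fx g ≤ Fx (g * tv (RingHom.id k) J (x - x ᵥ* g.1) c) := by
  intro y hy
  rw [mem_Fx] at hy ⊢
  rw [vecMul_mul', hy, vecMul_tv (h.hf_self _)]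
  have h1 : hf (RingHom.id k) J y (x - x ᵥ* g.1) = 0 := by
    have h2 := mem_formGroup.mp hg y x
    rw [hy] at h2
    have h3 := hf_add_right (RingHom.id k) J y (x - x ᵥ* g.1) (x ᵥ* g.1)
    rw [sub_add_cancel, h2] at h3
    linear_combination -h3
  rw [h1, mul_zero, zero_smul, add_zero]

theorem step_one (h : Alt J) {g : SpecialLinearGroup n k} (hg : g ∈ FormGroup (RingHom.id k) J)
    {x : n → k} (hx : hf (RingHom.id k) J (x ᵥ* g.1) x ≠ 0) :
    ∃ t ∈ GT (RingHom.id k) (-1) J, Fx g < Fx (g * t) := by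
  refine ⟨tv (RingHom.id k) J (x - x ᵥ* g.1) (hf (RingHom.id k) J (x ᵥ* g.1) x)⁻¹,
    tv_mem_GT (h.hf_self _) (cc_id _), lt_of_le_of_ne (Fx_le h hg x _) ?_⟩
  intro heq
  have h1 : x ∈ Fx (g * tv (RingHom.id k) J (x - x ᵥ* g.1)
      (hf (RingHom.id k) J (x ᵥ* g.1) x)⁻¹) := by
    rw [mem_Fx, vecMul_mul', vecMul_tv (h.hf_self _)]
    have h2 : hf (RingHom.id k) J (x ᵥ* g.1) (x - x ᵥ* g.1) =
        hf (RingHom.id k) J (x ᵥ* g.1) x := by
      have h3 := hf_add_right (RingHom.id k) J (x ᵥ* g.1) (x - x ᵥ* g.1) (x ᵥ* g.1)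
      rw [sub_add_cancel, h.hf_self, add_zero] at h3
      exact h3.symm
    rw [h2, inv_mul_cancel₀ hx, one_smul]
    abel
  rw [← heq, mem_Fx] at h1
  rw [h1, h.hf_self] at hx
  exact hx rfl

theorem step_two (h : Alt J) {g : SpecialLinearGroup n k} (hg : g ∈ FormGroup (RingHom.id k) J)
    (h1 : g ≠ 1) (h0 : ∀ x, hf (RingHom.id k) J (x ᵥ* g.1) x = 0) :
    ∃ t ∈ GT (RingHom.id k) (-1) J, Fx g ≤ Fx (g * t) ∧
      ∃ y, hf (RingHom.id k) J (y ᵥ* (g * t).1) y ≠ 0 := by
  obtain ⟨x, hx⟩ : ∃ x, x ᵥ* g.1 ≠ x := by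
    by_contra hcon
    push Not at hcon
    refine h1 (ext_vecMul fun x => ?_)
    rw [hcon, vecMul_one']
  set v := x - x ᵥ* g.1 with hv
  have hv0 : v ≠ 0 := fun h => hx (sub_eq_zero.1 h).symm
  obtain ⟨y, hy⟩ := h.nondeg v hv0
  refine ⟨tv (RingHom.id k) J v 1, tv_mem_GT (h.hf_self _) (cc_id _), Fx_le h hg x _, y, ?_⟩
  rw [vecMul_mul', vecMul_tv (h.hf_self _), hf_add_left, hf_smul_left, h0, zero_add, one_mul]
  -- skew-symmetry
  have sk : ∀ a b, hf (RingHom.id k) J b a = -hf (RingHom.id k) J a b := by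
    intro a b
    have h1 := h.hf_self (a + b)
    rw [hf_add_left, hf_add_right, hf_add_right, h.hf_self, h.hf_self] at h1
    linear_combination h1
  have hxg := h0 (x + y)
  rw [add_vecMul, hf_add_left, hf_add_right, hf_add_right, h0, h0] at hxg
  have e1 : hf (RingHom.id k) J (y ᵥ* g.1) v = hf (RingHom.id k) J v y := by
    have h3 := hf_add_right (RingHom.id k) J (y ᵥ* g.1) v (x ᵥ* g.1)
    have h4 := hf_add_left (RingHom.id k) J v (x ᵥ* g.1) y
    have h5 := mem_formGroup.mp hg y x
    have h6 : v + x ᵥ* g.1 = x := by rw [hv]; abel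
    rw [h6] at h3 h4
    have h7 := sk x y
    linear_combination -h3 + h4 - h5 + hxg - h7
  rw [e1]
  exact mul_ne_zero hy hy

/-- **The symplectic group is generated by transvections.** -/
theorem formGroup_eq_GT (h : Alt J) :
    FormGroup (RingHom.id k) J = GT (RingHom.id k) (-1) J := by
  refine le_antisymm ?_ ?_
  · have key : ∀ (m : ℕ) (g : SpecialLinearGroup n k), g ∈ FormGroup (RingHom.id k) J →
        Module.finrank k (n → k) - Module.finrank k (Fx g) ≤ m →
        g ∈ GT (RingHom.id k) (-1) J := by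
      intro m
      induction m with
      | zero =>
        intro g hg hm
        have h1 : Fx g = ⊤ := by
          apply Submodule.eq_top_of_finrank_eq
          have := Submodule.finrank_le (Fx g)
          omega
        have h2 : g = 1 := ext_vecMul fun x => by
          rw [vecMul_one']
          exact mem_Fx.1 (by rw [h1]; trivial)
        rw [h2]
        exact one_mem _
      | succ m ih =>
        intro g hg hm
        by_cases hg1 : g = 1
        · rw [hg1]; exact one_mem _
        have tvF : ∀ t ∈ GT (RingHom.id k) (-1) J, t ∈ FormGroup (RingHom.id k) J := by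
          haveI : Nonempty n := by
            by_contra hn
            rw [not_nonempty_iff] at hn
            exact hg1 (ext_vecMul fun x => Subsingleton.elim _ _)
          intro t ht
          exact GT_le h.frm ht
        have main : ∀ g' ∈ FormGroup (RingHom.id k) J, Fx g ≤ Fx g' →
            (∃ y, hf (RingHom.id k) J (y ᵥ* g'.1) y ≠ 0) → g' ∈ GT (RingHom.id k) (-1) J := by
          intro g' hg' hle ⟨y, hy⟩
          obtain ⟨t, ht, hlt⟩ := step_one h hg' hy
          have h2 : Module.finrank k (Fx g) < Module.finrank k (Fx (g' * t)) :=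
            Submodule.finrank_lt_finrank_of_lt (lt_of_le_of_lt hle hlt)
          have h3 := ih (g' * t) (mul_mem hg' (tvF t ht)) (by
            have := Submodule.finrank_le (Fx (g' * t))
            omega)
          have h4 := mul_mem h3 (inv_mem ht)
          rwa [mul_inv_cancel_right] at h4
        by_cases h0 : ∀ x, hf (RingHom.id k) J (x ᵥ* g.1) x = 0
        · obtain ⟨t, ht, hle, hy⟩ := step_two h hg hg1 h0
          have h3 := main (g * t) (mul_mem hg (tvF t ht)) hle hy
          have h4 := mul_mem h3 (inv_mem ht)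
          rwa [mul_inv_cancel_right] at h4
        · push Not at h0
          exact main g hg le_rfl h0
    intro g hg
    exact key _ g hg le_rfl
  · by_cases hn : Nonempty n
    · exact GT_le h.frm
    · rw [not_nonempty_iff] at hn
      intro g hg
      rw [show g = 1 from ext_vecMul fun x => Subsingleton.elim _ _]
      exact one_mem _

end Vale.Agent.P092.H15
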