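import Vale.Agent.P092.H933.HM4
import Vale.Agent.P092.H933.HMPA

/-!
P092 (helper15), [CLASS-HM], part 1: one predicate `HMG G` on topological groups, without
representations, from which the Howe–Moore theorem and all its product forms follow; it passes to
quotients and holds for `SL_N(k)`.

`HMG G`: along every ultrafilter which tends to infinity, every length function (continuous at `1`)
which vanishes on the limits of `γ b` with `b⁻¹ (γ b) b → 1` vanishes.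
-/

set_option linter.all false

namespace Vale.Agent.P092.H15

open Filter Topology
open Vale.Agent.P092.H933 (Len URep exists_wlim wlim_perturb fixedSub mem_fixedSub HoweMoore)

open scoped InnerProductSpace

/-- `g` is a limit of elements `γ b` with `b⁻¹ (γ b) b → 1`. -/
def Ctr {G : Type*} [Group G] [TopologicalSpace G] (U : Ultrafilter G) (g : G) : Prop :=
  ∃ γ : G → G, Tendsto γ U (𝓝 g) ∧ Tendsto (fun b => b⁻¹ * γ b * b) U (𝓝 1)

/-- The group form of the Howe–Moore property. -/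
def HMG (G : Type*) [Group G] [TopologicalSpace G] : Prop :=
  ∀ U : Ultrafilter G, (U : Filter G) ≤ cocompact G → ∀ f : G → ℝ, Len f →
    (∀ g, Ctr U g → f g = 0) → ∀ g, f g = 0

theorem Len.comap_conj {G : Type*} [Group G] [TopologicalSpace G] [IsTopologicalGroup G]
    {f : G → ℝ} (hf : Len f) (a : G) : Len (fun g => f (a * g * a⁻¹)) := by
  have h := hf.comap (MulAut.conj a).toMonoidHom (by
    have : Continuous fun g : G => a * g * a⁻¹ := by fun_prop
    exact this.continuousAt)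
  exact h

namespace HMG

variable {G : Type*} [Group G] [TopologicalSpace G]
  {𝓗 : Type*} [NormedAddCommGroup 𝓗] [InnerProductSpace ℂ 𝓗] [CompleteSpace 𝓗]

/-- **Howe–Moore, core form**: along an ultrafilter, weak limits of `σ (b i) (x i)` are fixed by
the group when `b i → ∞` and `x i` converges in norm. -/
theorem fixed [IsTopologicalGroup G] {σ : G →* (𝓗 →L[ℂ] 𝓗)} (h : HMG G) (hσ : URep σ)
    {ι : Type*} (U : Ultrafilter ι) {b : ι → G} (hb : Tendsto b U (cocompact _)) {x : ι → 𝓗}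
    {ξ : 𝓗} (hx : Tendsto x U (𝓝 ξ)) {ζ : 𝓗}
    (hζ : ∀ η, Tendsto (fun i => ⟪σ (b i) (x i), η⟫_ℂ) U (𝓝 ⟪ζ, η⟫_ℂ)) (s : G) : σ s ζ = ζ := by
  have hx' : ∀ η, Tendsto (fun i => ⟪σ (b i) ξ, η⟫_ℂ) U (𝓝 ⟪ζ, η⟫_ℂ) := by
    intro η
    have h1 : Tendsto (fun i => ⟪σ (b i) (x i), η⟫_ℂ - ⟪σ (b i) (x i) - σ (b i) ξ, η⟫_ℂ) U
        (𝓝 (⟪ζ, η⟫_ℂ - 0)) := by
      refine (hζ η).sub ?_
      have h2 : Tendsto (fun i => ‖x i - ξ‖ * ‖η‖) U (𝓝 0) := by
        have := (tendsto_iff_norm_sub_tendsto_zero.1 hx).mul_const ‖η‖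
        rwa [zero_mul] at this
      refine squeeze_zero_norm (fun i => ?_) h2
      refine (norm_inner_le_norm _ _).trans ?_
      rw [← map_sub, hσ.iso]
    rw [sub_zero] at h1
    refine h1.congr fun i => ?_
    rw [inner_sub_left]; ring
  have key := h (U.map b) hb (fun g => ‖σ g ζ - ζ‖) (hσ.len ζ) (fun g hg => ?_) s
  · exact sub_eq_zero.1 (norm_eq_zero.1 key)
  · obtain ⟨γ, hγ, hγ1⟩ := hg
    have hγ' : Tendsto (fun i => γ (b i)) U (𝓝 g) := hγ
    have hγ1' : Tendsto (fun i => (b i)⁻¹ * γ (b i) * b i) U (𝓝 1) := hγ1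
    rw [norm_eq_zero, sub_eq_zero]
    refine ext_inner_right ℂ fun η => ?_
    rw [hσ.inner_left]
    have h3 : Tendsto (fun i => ⟪σ (b i) ξ, σ (γ (b i))⁻¹ η⟫_ℂ) U (𝓝 ⟪ζ, σ g⁻¹ η⟫_ℂ) := by
      refine wlim_perturb (A' := fun i => σ (b i) ξ) (C := ‖ξ‖) ?_ (fun i => by rw [hσ.iso])
        (hσ.tendsto hγ'.inv tendsto_const_nhds) (hx' _)
      simp only [sub_self]
      exact tendsto_const_nhds
    have h4 : Tendsto (fun i => ⟪σ (b i) (σ ((b i)⁻¹ * γ (b i) * b i) ξ), η⟫_ℂ) U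
        (𝓝 ⟪ζ, η⟫_ℂ) := by
      refine wlim_perturb (A' := fun i => σ (b i) ξ) (C := ‖ξ‖) ?_
        (fun i => by rw [hσ.iso]) (tendsto_const_nhds (x := η)) (hx' η)
      rw [tendsto_zero_iff_norm_tendsto_zero]
      have h1 : Tendsto (fun i => σ ((b i)⁻¹ * γ (b i) * b i) ξ) U (𝓝 ξ) := (hσ.cont ξ).comp hγ1'
      have h5 := tendsto_iff_norm_sub_tendsto_zero.1 h1
      refine h5.congr fun i => ?_
      rw [← map_sub, hσ.iso]
    refine tendsto_nhds_unique h3 (h4.congr fun i => ?_)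
    rw [← hσ.inner_left, URep.conj_apply]

/-- **Howe–Moore** (uniform on norm-compact sets of vectors). -/
theorem tendsto_zero [IsTopologicalGroup G] {σ : G →* (𝓗 →L[ℂ] 𝓗)} (h : HMG G) (hσ : URep σ)
    (hfix : ∀ ξ, (∀ s, σ s ξ = ξ) → ξ = 0) {ι : Type*}
    {l : Filter ι} {b : ι → G} (hb : Tendsto b l (cocompact _))
    {x y : ι → 𝓗} {K K' : Set 𝓗} (hK : IsCompact K) (hK' : IsCompact K')
    (hx : ∀ᶠ i in l, x i ∈ K) (hy : ∀ᶠ i in l, y i ∈ K') :
    Tendsto (fun i => ⟪σ (b i) (x i), y i⟫_ℂ) l (𝓝 0) := by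
  rw [tendsto_iff_ultrafilter]
  intro U hU
  obtain ⟨x₀, -, hx₀⟩ := hK.ultrafilter_le_nhds (U.map x)
    (Filter.tendsto_principal.2 (hU hx))
  obtain ⟨y₀, -, hy₀⟩ := hK'.ultrafilter_le_nhds (U.map y)
    (Filter.tendsto_principal.2 (hU hy))
  have hx₀ : Tendsto x U (𝓝 x₀) := hx₀
  have hy₀ : Tendsto y U (𝓝 y₀) := hy₀
  obtain ⟨ζ, hζ⟩ := exists_wlim U (fun i => σ (b i) x₀) (C := ‖x₀‖)
    (fun i => by rw [hσ.iso])
  have hz : ζ = 0 := hfix ζ fun s => h.fixed hσ U (hb.mono_left hU)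
    (tendsto_const_nhds (x := x₀)) hζ s
  refine wlim_perturb (A' := fun i => σ (b i) x₀) (C := ‖x₀‖) (B₀ := y₀) ?_
    (fun i => by rw [hσ.iso]) hy₀ ?_
  · rw [tendsto_zero_iff_norm_tendsto_zero]
    have h5 := tendsto_iff_norm_sub_tendsto_zero.1 hx₀
    refine h5.congr fun i => ?_
    rw [← map_sub, hσ.iso]
  · have := hζ y₀
    rwa [hz, inner_zero_left] at this

/-- **Howe–Moore**. -/
theorem main [IsTopologicalGroup G] {σ : G →* (𝓗 →L[ℂ] 𝓗)} (h : HMG G) (hσ : URep σ)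
    (hfix : ∀ ξ, (∀ s, σ s ξ = ξ) → ξ = 0) (ξ η : 𝓗) :
    Tendsto (fun g => ⟪σ g ξ, η⟫_ℂ) (cocompact G) (𝓝 0) :=
  h.tendsto_zero hσ hfix tendsto_id (isCompact_singleton (x := ξ))
    (isCompact_singleton (x := η)) (Eventually.of_forall fun _ => rfl)
    (Eventually.of_forall fun _ => rfl)

/-- **Howe–Moore, projection form**: `⟪σ (b i) (x i), y i⟫ → ⟪P ξ, η⟫` with `P` the projection onto
the fixed vectors, if `b i → ∞`, `x i → ξ`, `y i → η`. -/
theorem tendsto_proj [IsTopologicalGroup G] {σ : G →* (𝓗 →L[ℂ] 𝓗)} (h : HMG G) (hσ : URep σ)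
    {ι : Type*} {l : Filter ι} {b : ι → G} (hb : Tendsto b l (cocompact _))
    {x y : ι → 𝓗} {ξ η : 𝓗} (hx : Tendsto x l (𝓝 ξ)) (hy : Tendsto y l (𝓝 η)) :
    Tendsto (fun i => ⟪σ (b i) (x i), y i⟫_ℂ) l
      (𝓝 ⟪(fixedSub σ).starProjection ξ, η⟫_ℂ) := by
  rw [tendsto_iff_ultrafilter]
  intro U hU
  obtain ⟨ζ, hζ⟩ := exists_wlim U (fun i => σ (b i) ξ) (C := ‖ξ‖) (fun i => by rw [hσ.iso])
  have hfix : ζ ∈ fixedSub σ := fun s => h.fixed hσ U (hb.mono_left hU)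
    (tendsto_const_nhds (x := ξ)) hζ s
  have hP : ζ = (fixedSub σ).starProjection ξ := by
    have hmem : (fixedSub σ).starProjection ξ ∈ fixedSub σ := Submodule.starProjection_apply_mem _ _
    rw [← sub_eq_zero, ← inner_self_eq_zero (𝕜 := ℂ)]
    have hd : ζ - (fixedSub σ).starProjection ξ ∈ fixedSub σ := Submodule.sub_mem _ hfix hmem
    have h1 : ⟪ζ, ζ - (fixedSub σ).starProjection ξ⟫_ℂ =
        ⟪ξ, ζ - (fixedSub σ).starProjection ξ⟫_ℂ := by
      refine tendsto_nhds_unique (hζ _) (tendsto_const_nhds.congr fun i => ?_)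
      rw [hσ.inner_left, hd]
    rw [inner_sub_left, h1, ← inner_sub_left]
    exact Submodule.starProjection_inner_eq_zero ξ _ hd
  rw [← hP]
  refine wlim_perturb (A' := fun i => σ (b i) ξ) (C := ‖ξ‖) ?_
    (fun i => by rw [hσ.iso]) (hy.mono_left hU) (hζ η)
  rw [tendsto_zero_iff_norm_tendsto_zero]
  refine (tendsto_iff_norm_sub_tendsto_zero.1 (hx.mono_left hU)).congr fun i => ?_
  rw [← map_sub, hσ.iso]

section prod

variable {H : Type*} [Group H] [TopologicalSpace H] [IsTopologicalGroup H] [IsTopologicalGroup G]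

/-- Product form: `σ` a representation of `H × G`, `a i → a` in `H` and `b i → ∞` in `G`: every weak
limit of `σ (a i, b i) (x i)`, `x i → ξ`, is fixed by `G`. -/
theorem fixed_prod {σ : H × G →* (𝓗 →L[ℂ] 𝓗)} (h : HMG G) (hσ : URep σ) {ι : Type*}
    (U : Ultrafilter ι) {a : ι → H} {a₀ : H} (ha : Tendsto a U (𝓝 a₀)) {b : ι → G}
    (hb : Tendsto b U (cocompact _)) {x : ι → 𝓗} {ξ : 𝓗} (hx : Tendsto x U (𝓝 ξ)) {ζ : 𝓗}
    (hζ : ∀ η, Tendsto (fun i => ⟪σ (a i, b i) (x i), η⟫_ℂ) U (𝓝 ⟪ζ, η⟫_ℂ)) (s : G) :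
    σ (1, s) ζ = ζ := by
  have hr : URep (σ.comp (MonoidHom.inr H G)) :=
    hσ.comp _ (Continuous.prodMk continuous_const continuous_id).continuousAt
  have hl : URep (σ.comp (MonoidHom.inl H G)) :=
    hσ.comp _ (Continuous.prodMk continuous_id continuous_const).continuousAt
  refine h.fixed hr U hb (x := fun i => σ (a i, 1) (x i)) (ξ := σ (a₀, 1) ξ)
    (hl.tendsto ha hx) (fun η => (hζ η).congr fun i => ?_) s
  show ⟪σ (a i, b i) (x i), η⟫_ℂ = ⟪σ (1, b i) (σ (a i, 1) (x i)), η⟫_ℂ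
  rw [← URep.mul_apply]
  simp

theorem fixed_prod' {σ : G × H →* (𝓗 →L[ℂ] 𝓗)} (h : HMG G) (hσ : URep σ) {ι : Type*}
    (U : Ultrafilter ι) {a : ι → H} {a₀ : H} (ha : Tendsto a U (𝓝 a₀)) {b : ι → G}
    (hb : Tendsto b U (cocompact _)) {x : ι → 𝓗} {ξ : 𝓗} (hx : Tendsto x U (𝓝 ξ)) {ζ : 𝓗}
    (hζ : ∀ η, Tendsto (fun i => ⟪σ (b i, a i) (x i), η⟫_ℂ) U (𝓝 ⟪ζ, η⟫_ℂ)) (s : G) :
    σ (s, 1) ζ = ζ := by
  have hs : URep (σ.comp (MulEquiv.prodComm (M := H) (N := G)).toMonoidHom) :=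
    hσ.comp _ (continuous_swap).continuousAt
  exact h.fixed_prod hs U ha hb hx hζ s

/-- Product form, filters: `σ (a i, b i) ξ` tends weakly to `σ (a₀, 1) P ξ`. -/
theorem tendsto_proj_prod {σ : H × G →* (𝓗 →L[ℂ] 𝓗)} (h : HMG G) (hσ : URep σ) {ι : Type*}
    {l : Filter ι} {a : ι → H} {a₀ : H} (ha : Tendsto a l (𝓝 a₀)) {b : ι → G}
    (hb : Tendsto b l (cocompact _)) {x y : ι → 𝓗} {ξ η : 𝓗} (hx : Tendsto x l (𝓝 ξ))
    (hy : Tendsto y l (𝓝 η)) :
    Tendsto (fun i => ⟪σ (a i, b i) (x i), y i⟫_ℂ) l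
      (𝓝 ⟪(fixedSub (σ.comp (MonoidHom.inr H G))).starProjection (σ (a₀, 1) ξ), η⟫_ℂ) := by
  have hr : URep (σ.comp (MonoidHom.inr H G)) :=
    hσ.comp _ (Continuous.prodMk continuous_const continuous_id).continuousAt
  have hl : URep (σ.comp (MonoidHom.inl H G)) :=
    hσ.comp _ (Continuous.prodMk continuous_id continuous_const).continuousAt
  refine (h.tendsto_proj hr hb (x := fun i => σ (a i, 1) (x i)) (ξ := σ (a₀, 1) ξ)
    (hl.tendsto ha hx) hy).congr fun i => ?_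
  show ⟪σ (1, b i) (σ (a i, 1) (x i)), y i⟫_ℂ = ⟪σ (a i, b i) (x i), y i⟫_ℂ
  rw [← URep.mul_apply]
  simp

/-- Product form without fixed vectors: the coefficients vanish when the second component tends to
infinity and the first stays in a compact set. -/
theorem tendsto_zero_prod {σ : H × G →* (𝓗 →L[ℂ] 𝓗)} (h : HMG G) (hσ : URep σ)
    (hfix : ∀ ξ, (∀ s, σ (1, s) ξ = ξ) → ξ = 0)
    {ι : Type*} {l : Filter ι} {a : ι → H} {C : Set H} (hC : IsCompact C)
    (ha : ∀ᶠ i in l, a i ∈ C) {b : ι → G} (hb : Tendsto b l (cocompact _)) (ξ η : 𝓗) :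
    Tendsto (fun i => ⟪σ (a i, b i) ξ, η⟫_ℂ) l (𝓝 0) := by
  have hr : URep (σ.comp (MonoidHom.inr H G)) :=
    hσ.comp _ (Continuous.prodMk continuous_const continuous_id).continuousAt
  have hl : URep (σ.comp (MonoidHom.inl H G)) :=
    hσ.comp _ (Continuous.prodMk continuous_id continuous_const).continuousAt
  have hK : IsCompact ((fun g : H => σ (g, 1) ξ) '' C) := by
    refine hC.image (continuous_iff_continuousAt.2 fun g => ?_)
    exact hl.tendsto tendsto_id (tendsto_const_nhds (x := ξ))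
  refine (h.tendsto_zero hr hfix hb hK (isCompact_singleton (x := η))
    (x := fun i => σ (a i, 1) ξ) (y := fun _ => η) (ha.mono fun i hi => ⟨_, hi, rfl⟩)
    (Eventually.of_forall fun _ => rfl)).congr fun i => ?_
  show ⟪σ (1, b i) (σ (a i, 1) ξ), η⟫_ℂ = ⟪σ (a i, b i) ξ, η⟫_ℂ
  rw [← URep.mul_apply]
  simp

end prod

/-- Quotients. -/
theorem of_surj {G' : Type*} [Group G'] [TopologicalSpace G'] (h : HMG G) (φ : G →* G')
    (hφ : Continuous φ) (hs : Function.Surjective φ) : HMG G' := by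
  intro U hU f hf hc g
  obtain ⟨s, hs'⟩ := hs.hasRightInverse
  obtain ⟨g, rfl⟩ := hs g
  have hU' : ((U.map s : Ultrafilter G) : Filter G) ≤ cocompact G := by
    intro A hA
    obtain ⟨K, hK, hKA⟩ := mem_cocompact.1 hA
    have h1 : (φ '' K)ᶜ ∈ (U : Filter G') := hU (hK.image hφ).compl_mem_cocompact
    change s ⁻¹' A ∈ (U : Filter G')
    refine mem_of_superset h1 fun y hy => hKA fun hyK => hy ⟨s y, hyK, hs' y⟩
  refine h (U.map s) hU' (fun x => f (φ x)) (hf.comap φ hφ.continuousAt) (fun x hx => ?_) g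
  obtain ⟨γ, hγ, hγ1⟩ := hx
  refine hc _ ⟨fun y => φ (γ (s y)), ?_, ?_⟩
  · exact (hφ.tendsto x).comp (show Tendsto (fun y => γ (s y)) U (𝓝 x) from hγ)
  · have h1 : Tendsto (fun y => (s y)⁻¹ * γ (s y) * s y) U (𝓝 1) := hγ1
    have h2 := (hφ.tendsto 1).comp h1
    rw [map_one] at h2
    refine h2.congr fun y => ?_
    simp only [Function.comp_apply, map_mul, map_inv]
    rw [hs' y]

theorem of_mulEquiv {G' : Type*} [Group G'] [TopologicalSpace G'] (h : HMG G) (e : G ≃ₜ* G') :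
    HMG G' :=
  h.of_surj e.toMulEquiv.toMonoidHom e.continuous_toFun e.toMulEquiv.surjective

end HMG

/-- The Howe–Moore property in the letters of helper933 / helper899. -/
theorem HMG.howeMoore {G : Type} [Group G] [TopologicalSpace G] [IsTopologicalGroup G]
    (h : HMG G) : HoweMoore G := by
  intro X _ _ _ π hiso hc hfix ξ η
  have hσ : URep π := ⟨hiso, fun ξ => by
    have := (hc ξ).tendsto 1
    rwa [map_one] at this⟩
  exact h.main hσ hfix ξ η

end Vale.Agent.P092.H15
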