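import Vale.Agent.P092.H15.SpGT
import Vale.Agent.P092.H15.ClHM

/-!
P092 (helper15): the symplectic group `Sp q k = Sp_{2q}(k)` as the group of the form
`H303.hyp q (-1) 0`: it is generated by transvections, closed, and has the group form of the
Howe–Moore property.
-/

set_option linter.all false

open Matrix Filter Topology

namespace Vale.Agent.P092.H15

open Vale.Agent.P092.H303 (FormGroup Idx)
open Vale.Agent.P092.H714.Cl

section alg

variable {n : Type} [Fintype n] [DecidableEq n] {k : Type} [NontriviallyNormedField k]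
  {J : Matrix n n k}

/-- Howe–Moore for the symplectic group of any nondegenerate alternating form. -/
theorem hmg_alt [Nonempty n] [ProperSpace k] (h : Alt J) : HMG (FormGroup (RingHom.id k) J) := by
  refine hmg_cl (fun _ => rfl) h.frm (formGroup_eq_GT h).ge le_rfl
    (H303.isClosed_formGroup (σ := RingHom.id k) continuous_id J) ?_
  rw [formGroup_eq_GT h]
  exact Subgroup.le_topologicalClosure _

end alg

/-- The matrix of the standard symplectic form of rank `q`. -/
def spJ (q : ℕ) (k : Type) [Field k] : Matrix (Idx q (Fin 0)) (Idx q (Fin 0)) k :=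
  H303.hyp q (-1) 0

/-- `Sp_{2q}(k)`. -/
abbrev Sp (q : ℕ) (k : Type) [Field k] : Subgroup (SpecialLinearGroup (Idx q (Fin 0)) k) :=
  FormGroup (RingHom.id k) (H303.hyp q (-1) (0 : Matrix (Fin 0) (Fin 0) k))

theorem alt_hyp (q : ℕ) (k : Type) [Field k] :
    Alt (H303.hyp q (-1) (0 : Matrix (Fin 0) (Fin 0) k)) where
  diag i := by
    rcases i with (i | i) | i <;> simp [H303.hyp]
  skew i j := by
    rcases i with (i | i) | i <;> rcases j with (j | j) | j <;>
      simp [H303.hyp, Matrix.one_apply, eq_comm]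
  det := by
    unfold H303.hyp
    rw [det_fromBlocks_zero₂₁, det_isEmpty (A := (0 : Matrix (Fin 0) (Fin 0) k)), mul_one]
    intro h0
    have h : (fromBlocks 0 1 ((-1 : k) • (1 : Matrix (Fin q) (Fin q) k)) 0) *
        (fromBlocks 0 (-1 : Matrix (Fin q) (Fin q) k) (1 : Matrix (Fin q) (Fin q) k) 0) = 1 := by
      rw [fromBlocks_multiply]
      simp
    have h1 := congrArg Matrix.det h
    rw [det_mul, h0, zero_mul, det_one] at h1
    exact zero_ne_one h1

theorem sp_eq_GT (q : ℕ) (k : Type) [Field k] : Sp q k = GT (RingHom.id k) (-1)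
    (H303.hyp q (-1) (0 : Matrix (Fin 0) (Fin 0) k)) := formGroup_eq_GT (alt_hyp q k)

theorem nonempty_idx {q : ℕ} (hq : 1 ≤ q) : Nonempty (Idx q (Fin 0)) :=
  ⟨.inl (.inl ⟨0, hq⟩)⟩

theorem frm_sp {q : ℕ} (hq : 1 ≤ q) (k : Type) [Field k] :
    Frm (RingHom.id k) (-1) (H303.hyp q (-1) (0 : Matrix (Fin 0) (Fin 0) k)) :=
  haveI := nonempty_idx hq
  (alt_hyp q k).frm

section top

variable {q : ℕ} {k : Type} [NontriviallyNormedField k]

theorem isClosed_sp : IsClosed (Sp q k : Set (SpecialLinearGroup (Idx q (Fin 0)) k)) :=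
  H303.isClosed_formGroup (σ := RingHom.id k) continuous_id _

/-- **Howe–Moore for `Sp_{2q}(k)`**, group form. -/
theorem hmg_sp [ProperSpace k] (hq : 1 ≤ q) : HMG (Sp q k) :=
  haveI := nonempty_idx hq
  hmg_alt (alt_hyp q k)

theorem hm_sp [ProperSpace k] (hq : 1 ≤ q) : H933.HoweMoore (Sp q k) := (hmg_sp hq).howeMoore

end top

end Vale.Agent.P092.H15
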