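import Vale.Agent.P092.H15.HMAbs

/-!
P092 (helper15), [CLASS-HM], part 2: `HMG` for `SL_N(k)`, `k` a local field (from helper933's Cartan
decomposition and Mautner lemma), and for `PSL_N(k)`.
-/

set_option linter.all false

namespace Vale.Agent.P092.H15

open Matrix Matrix.SpecialLinearGroup Filter Topology
open Vale.Agent.P092.H933

theorem hmg_sl {N : ℕ} {k : Type} [NontriviallyNormedField k] [ProperSpace k] (hk : LocK k)
    (hN : 2 ≤ N) : HMG (SpecialLinearGroup (Fin N) k) := by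
  intro U hU f hf hc
  choose u D v d hu hv hD hanti hg using fun i => exists_kak hk (by omega : 0 < N) i
  obtain ⟨u₀, -, hu₀⟩ := (isCompact_bdd (N := N) (k := k) 1).ultrafilter_le_nhds (U.map u)
    (Filter.tendsto_principal.2 (Filter.Eventually.of_forall fun i => hu i))
  obtain ⟨v₀, -, hv₀⟩ := (isCompact_bdd (N := N) (k := k) 1).ultrafilter_le_nhds (U.map v)
    (Filter.tendsto_principal.2 (Filter.Eventually.of_forall fun i => hv i))
  have hu₀ : Tendsto u U (𝓝 u₀) := hu₀
  have hv₀ : Tendsto v U (𝓝 v₀) := hv₀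
  -- the first diagonal entry tends to infinity
  have hlast : ∀ i, ‖d i ⟨N - 1, by omega⟩‖ ≤ 1 := fun i => norm_last_le hN (hD i) (hanti i)
  have hinf : Tendsto (fun i => ‖d i ⟨0, by omega⟩‖) U atTop := by
    rw [tendsto_atTop]
    intro R
    by_contra hcon
    have h1 : ∀ᶠ i in (U : Filter _), ¬ R ≤ ‖d i ⟨0, by omega⟩‖ :=
      Ultrafilter.eventually_not.2 hcon
    have h2 : ∀ᶠ i in (U : Filter _), i ∉ {g : SpecialLinearGroup (Fin N) k |
        ∀ p q, ‖g.1 p q‖ ≤ N * R} :=
      hU (isCompact_bdd (N * R)).compl_mem_cocompact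
    obtain ⟨i, hi1, hi2⟩ := (h1.and h2).exists
    refine hi2 fun p q => ?_
    rw [hg i]
    refine (entry_kak hN (hu i) (hv i) (hD i) (hanti i) p q).trans ?_
    exact mul_le_mul_of_nonneg_left (not_le.1 hi1).le (Nat.cast_nonneg _)
  have hpq : (⟨0, by omega⟩ : Fin N) ≠ ⟨N - 1, by omega⟩ := by
    intro h; have := congrArg Fin.val h; simp only at this; omega
  have hroot : ∀ t : k, f (u₀ * transvection hpq t * u₀⁻¹) = 0 := by
    intro t
    refine hc _ ⟨fun i => u i * transvection hpq t * (u i)⁻¹, ?_, ?_⟩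
    · exact (hu₀.mul tendsto_const_nhds).mul hu₀.inv
    · have ht : Tendsto (fun i => (d i ⟨0, by omega⟩)⁻¹ * t * d i ⟨N - 1, by omega⟩) U (𝓝 0) := by
        have h1 : Tendsto (fun i => ‖d i ⟨0, by omega⟩‖⁻¹ * ‖t‖) U (𝓝 0) := by
          have := (tendsto_inv_atTop_zero.comp hinf).mul_const ‖t‖
          rwa [zero_mul] at this
        refine squeeze_zero_norm (fun i => ?_) h1
        rw [norm_mul, norm_mul, norm_inv]
        calc ‖d i ⟨0, by omega⟩‖⁻¹ * ‖t‖ * ‖d i ⟨N - 1, by omega⟩‖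
            ≤ ‖d i ⟨0, by omega⟩‖⁻¹ * ‖t‖ * 1 := by
              exact mul_le_mul_of_nonneg_left (hlast i) (by positivity)
          _ = _ := mul_one _
      have h2 := (hv₀.inv.mul (tendsto_transvection hpq ht)).mul hv₀
      rw [mul_one, inv_mul_cancel] at h2
      refine h2.congr fun i => ?_
      rw [← conj_root (hD i)]
      conv_rhs => rw [show i⁻¹ = (u i * D i * v i)⁻¹ by rw [← hg i]]
      conv_rhs => rw [show ∀ x : SpecialLinearGroup (Fin N) k, x * i = x * (u i * D i * v i) from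
        fun x => by rw [← hg i]]
      group
  have hker := (Len.comap_conj hf u₀).eq_top hpq (fun t => by
    rw [Len.mem_ker]; exact hroot t)
  intro g
  have h1 : u₀⁻¹ * g * u₀ ∈ (Len.comap_conj hf u₀).ker := by rw [hker]; trivial
  rw [Len.mem_ker] at h1
  have e : u₀ * (u₀⁻¹ * g * u₀) * u₀⁻¹ = g := by group
  rwa [e] at h1

/-- Quotients of `SL_N(k)`. -/
theorem hmg_sl_quot {N : ℕ} {k : Type} [NontriviallyNormedField k] [ProperSpace k] (hk : LocK k)
    (hN : 2 ≤ N) (Z : Subgroup (SpecialLinearGroup (Fin N) k)) [Z.Normal] :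
    HMG (SpecialLinearGroup (Fin N) k ⧸ Z) :=
  (hmg_sl hk hN).of_surj (QuotientGroup.mk' Z) continuous_quot_mk (QuotientGroup.mk'_surjective Z)

end Vale.Agent.P092.H15
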