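import Vale.Agent.P092.H15.Sp
import Vale.Agent.P092.H714.Cl5
import Vale.Agent.P092.H714.TopF

/-!
P092 (helper15): `Sp_{2q}(k)`, `q ≥ 2`, is a factor of rank `q` in the sense of `H714.TF.Fct`.
Also: the chain of a form of Witt index `q ≥ 2` starts with a direction which tends to infinity.
-/

set_option linter.all false

open Matrix Filter Topology

namespace Vale.Agent.P092.H15

open Vale.Agent.P092.H303 (FormGroup Idx hyp formChain torF torF_mem torF_pow_row lam dgF)
open Vale.Agent.P092.H714.Cl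
open Vale.Agent.P092.H264 (Chn)

section chn

variable {ι : Type} [Fintype ι] [DecidableEq ι] {k : Type} [NontriviallyNormedField k]
  {σ : k →+* k} {ε : k} {J₀ : Matrix ι ι k}

/-- Powers of an element with a diagonal entry of norm larger than one, others in the row zero. -/
theorem tendsto_pow_cocompact {n : Type} [Fintype n] [DecidableEq n]
    {G : Subgroup (SpecialLinearGroup n k)} (g : ℕ → G) (i : n) {w : k} (hw : 1 < ‖w‖)
    (h : ∀ N, (g N).1.1 i i = w ^ N) : Tendsto g atTop (cocompact G) := by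
  have hc : Continuous fun x : G => ‖x.1.1 i i‖ := by
    have h : Continuous fun x : G => x.1.1 := continuous_subtype_val.comp continuous_subtype_val
    exact ((continuous_apply i).comp ((continuous_apply i).comp h)).norm
  rw [hasBasis_cocompact.tendsto_right_iff]
  intro K hK
  obtain ⟨C, hC⟩ := (hK.image hc).bddAbove
  obtain ⟨N₀, hN₀⟩ := pow_unbounded_of_one_lt C hw
  filter_upwards [eventually_ge_atTop N₀] with N hN hmem
  have h1 : ‖(g N).1.1 i i‖ ≤ C := hC ⟨_, hmem, rfl⟩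
  rw [h, norm_pow] at h1
  have h2 : ‖w‖ ^ N₀ ≤ ‖w‖ ^ N := pow_le_pow_right₀ hw.le hN
  linarith

/-- The chain of the group of a form of Witt index at least two. -/
theorem chn_form [ProperSpace k] (q : ℕ) (hσ : ∀ x, σ (σ x) = x) (hn : ∀ x, ‖σ x‖ = ‖x‖)
    (hε : ε * ε = 1) (hσε : σ ε = ε) : Chn (FormGroup σ (hyp (q + 2) ε J₀)) (q + 2) := by
  let _ : MeasurableSpace (FormGroup σ (hyp (q + 2) ε J₀)) := borel _
  have _ : BorelSpace (FormGroup σ (hyp (q + 2) ε J₀)) := ⟨rfl⟩
  obtain ⟨x, hx⟩ := NormedField.exists_one_lt_norm k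
  have hw1 : 1 < ‖x * σ x‖ := by
    rw [norm_mul, hn]
    nlinarith
  have hσw : σ (x * σ x) = x * σ x := by rw [map_mul, hσ, mul_comm]
  have hw0 : x * σ x ≠ 0 := norm_pos_iff.mp (lt_trans one_pos hw1)
  refine ⟨formChain (w := x * σ x) q J₀ (continuous_of_norm hn) hσ hε hσε hw1 hσw, fun h0 => ?_⟩
  have hval : ∃ i : Idx (q + 2) ι, dgF (q + 2) ι (x * σ x) (lam q ⟨0, h0⟩) i = x * σ x := by
    obtain ⟨e, e1, -, -⟩ := H303.dg_ratio (ι := ι) q (x * σ x) ⟨0, h0⟩
    exact ⟨_, e1⟩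
  obtain ⟨i, hi⟩ := hval
  refine tendsto_pow_cocompact _ i hw1 fun N => ?_
  have h1 := torF_pow_row (q + 2) hw0 (lam q ⟨0, h0⟩) i N 1
  rw [mul_one, hi] at h1
  have h2 := congrFun h1 i
  rw [Pi.smul_apply, smul_eq_mul] at h2
  change (torF (q + 2) ι hw0 (lam q ⟨0, h0⟩) ^ N).1 i i = _
  rw [h2]
  change (x * σ x) ^ N * (1 : Matrix _ _ k) i i = _
  rw [Matrix.one_apply_eq, mul_one]

end chn

variable {q : ℕ} {k : Type} [NontriviallyNormedField k] [ProperSpace k]

theorem facS_sp (hq : 1 ≤ q) : PA.FacS (H259.PQ (Sp q k)) :=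
  facS_G (fun _ => rfl) (frm_sp hq k) (sp_eq_GT q k) isClosed_sp
    (PA.hm_of_howeMoore (hm_sp hq))

theorem cf_sp (hq : 1 ≤ q) : H259.Cf (Sp q k) :=
  cf_G (fun _ => rfl) (frm_sp hq k) (sp_eq_GT q k).ge le_rfl

/-- **`Sp_{2q}(k)`, `q ≥ 2`, is a factor of rank `q`.** -/
theorem fct_sp (hk : H933.LocK k) (hq : 2 ≤ q) : H714.TF.Fct (Sp q k) q where
  top := inferInstance
  lc := H303.locallyCompact_formGroup (σ := RingHom.id k) continuous_id _
  sc := H303.secondCountable_formGroup _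
  t2 := inferInstance
  cf := cf_sp (by omega)
  fac := facS_sp (by omega)
  hm := hm_sp (by omega)
  chn := by
    obtain ⟨q, rfl⟩ : ∃ p, q = p + 2 := ⟨q - 2, by omega⟩
    exact chn_form q (fun _ => rfl) (fun _ => rfl) (by ring) rfl
  tgt := H515.tgt_formGroup hk (fun _ => rfl) (fun _ => rfl) (by simp)
    fun v hv => absurd (Subsingleton.elim v 0) hv
  pos := by omega

end Vale.Agent.P092.H15
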